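import Vale.Agent.P194.Doubles

/-!
P194 (Kaplansky's direct finiteness conjecture), partial answer.

Direct and stable finiteness of group rings pass from `G ⧸ N` to `G` for large classes of normal
subgroups `N`, over arbitrary coefficient rings (free kernels, more generally `Hyper ℤ` kernels) or
coefficient rings of characteristic `p` (`Hyper ℤ/p` kernels).  Consequences: amalgams of copies of
a group over an arbitrary subgroup, HNN extensions along the identity of a subgroup, free-by-sofic
groups of any rank, and a class of groups closed under such extensions and local embeddability.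
-/

namespace Vale.Agent.Results.P194.Extensions

open Vale.Agent.P194

universe u v w x

theorem result :
    -- (1) coefficient rings of characteristic `p`, kernels of type `Hyper ℤ/p`
    (∀ (p : ℕ) [Fact p.Prime] (R : Type u) [Ring R] [CharP R p] (G : Type v) [Group G]
      (N : Subgroup G) [N.Normal], Hyper (Multiplicative (ZMod p)) N →
      (DirectlyFinite (MonoidAlgebra R (G ⧸ N)) → DirectlyFinite (MonoidAlgebra R G)) ∧
      (StablyFinite (MonoidAlgebra R (G ⧸ N)) → StablyFinite (MonoidAlgebra R G))) ∧
    -- (2) arbitrary coefficient rings, kernels of type `Hyper ℤ`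
    (∀ (R : Type u) [Ring R] (G : Type v) [Group G] (N : Subgroup G) [N.Normal],
      Hyper (Multiplicative ℤ) N →
      (DirectlyFinite (MonoidAlgebra R (G ⧸ N)) → DirectlyFinite (MonoidAlgebra R G)) ∧
      (StablyFinite (MonoidAlgebra R (G ⧸ N)) → StablyFinite (MonoidAlgebra R G))) ∧
    -- (3) which kernels are of these types: free ones, of any rank, and central ones
    (∀ (G : Type v) [Group G] (N : Subgroup G), IsFreeGroup N →
      Hyper (Multiplicative ℤ) N ∧ ∀ p : ℕ, p.Prime → Hyper (Multiplicative (ZMod p)) N) ∧
    (∀ (p : ℕ) (G : Type v) [Group G] (N : Subgroup G), p.Prime → N ≤ Subgroup.center G →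
      (∀ x ∈ N, ∀ k : ℕ, k.Coprime p → x ^ k = 1 → x = 1) →
      Hyper (Multiplicative (ZMod p)) N) ∧
    -- (4) homomorphisms with free kernel, over any ring
    (∀ (R : Type u) [Ring R] (G : Type v) (Q : Type w) [Group G] [Group Q] (f : G →* Q),
      IsFreeGroup f.ker →
      (DirectlyFinite (MonoidAlgebra R Q) → DirectlyFinite (MonoidAlgebra R G)) ∧
      (StablyFinite (MonoidAlgebra R Q) → StablyFinite (MonoidAlgebra R G))) ∧
    -- (5) amalgams of copies of `A` over any subgroup `C`, and HNN extensions along `id : C → C`
    (∀ (R : Type u) [Ring R] (A : Type v) [Group A] (C : Subgroup A) (ι : Type w) [Nonempty ι],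
      (DirectlyFinite (MonoidAlgebra R A) →
        DirectlyFinite (MonoidAlgebra R (Monoid.PushoutI (fun _ : ι => C.subtype)))) ∧
      (StablyFinite (MonoidAlgebra R A) →
        StablyFinite (MonoidAlgebra R (Monoid.PushoutI (fun _ : ι => C.subtype))))) ∧
    (∀ (R : Type u) [Ring R] (A : Type v) [Group A] (C : Subgroup A),
      (DirectlyFinite (MonoidAlgebra R A) →
        DirectlyFinite (MonoidAlgebra R (HNNExtension A C C (MulEquiv.refl C)))) ∧
      (StablyFinite (MonoidAlgebra R A) →
        StablyFinite (MonoidAlgebra R (HNNExtension A C C (MulEquiv.refl C))))) ∧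
    -- (6) fields: groups mapping to a sofic group with free kernel, and the class `Built`
    (∀ (K : Type u) [Field K] (G : Type v) (Q : Type w) [Group G] [Group Q] (f : G →* Q),
      IsFreeGroup f.ker → IsSofic Q → StablyFinite (MonoidAlgebra K G)) ∧
    (∀ (p : ℕ) [Fact p.Prime] (K : Type u) [Field K] [CharP K p] (G : Type v) [Group G],
      Built p G → StablyFinite (MonoidAlgebra K G)) := by
  have hZ : (Multiplicative.ofAdd (1 : ℤ)) ≠ 1 := by
    intro h
    exact one_ne_zero (Multiplicative.ofAdd.injective h)
  refine ⟨?_, ?_, ?_, ?_, ?_, ?_, ?_, ?_, ?_⟩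
  · intro p _ R _ _ G _ N _ hH
    exact ⟨df_ext vp_p hH, stab_ext vp_p hH⟩
  · intro R _ G _ N _ hH
    exact ⟨df_ext vp_Z hH, stab_ext vp_Z hH⟩
  · intro G _ N _
    refine ⟨hyper_free N hZ, fun p hp => ?_⟩
    haveI : Fact p.Prime := ⟨hp⟩
    have h1 : (Multiplicative.ofAdd (1 : ZMod p)) ≠ 1 := by
      intro h
      exact one_ne_zero (Multiplicative.ofAdd.injective h)
    exact hyper_free N h1
  · intro p G _ N hp hN htor
    haveI : Fact p.Prime := ⟨hp⟩
    exact hyper_central N hN htor
  · intro R _ G Q _ _ f hf
    exact free_ker f hf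
  · intro R _ A _ C ι _
    exact amalgam_finite C ι
  · intro R _ A _ C
    exact hnn_finite C
  · intro K _ G Q _ _ f hf hQ
    exact (free_ker f hf).2 (stablyFinite_of_sofic hQ)
  · intro p _ K _ _ G _ h
    exact stab_built h

end Vale.Agent.Results.P194.Extensions
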